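import Crest.Agent.X212.Sg31.Hf
import Crest.Agent.X212.Cgr76.Y
import Crest.Agent.X212.Top68.Pw
import Crest.Agent.X212.Wrd81.Par

/-! CRIT-SG: both signs occur. -/

set_option autoImplicit false
set_option linter.unusedSectionVars false
noncomputable section
open scoped Manifold ContDiff Topology InnerProductSpace
open MeasureTheory Set Function Filter

namespace Crest.Agent.X212.Sg31
open An An.Pre Sob92 Wz78 Cyf70 Nd18 Crt72 Cgr76 Map77
open Top68 (ap)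

section pt
variable {E : Type} [NormedAddCommGroup E] [NormedSpace ℝ E] [FiniteDimensional ℝ E]
  [MeasurableSpace E] [BorelSpace E]
  {HM : Type} [TopologicalSpace HM] {I : ModelWithCorners ℝ E HM}
  {M : Type} [TopologicalSpace M] [ChartedSpace HM M] [IsManifold I ∞ M]
  [MeasurableSpace M] {κ : Type} [Fintype κ] {lam : Type} [Fintype lam]
  {m : Md M (Option κ) lam} {B : Base M (Option κ) lam} {x : M} {t : κ → ℝ}

variable (m x t) in
/-- the symbol on spinors -/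
def sy : En (Fin m.N) := -(m.ρ none x * ∑ a, t a • m.ρ (some a) x)

variable (B x t) in
/-- the squared length of a covector -/
def nq : ℝ := ∑ a, ∑ b, t a * t b * B.P (some a) (some b) x

theorem sy_smul (c : ℝ) : sy m x (fun a => c * t a) = c • sy m x t := by
  simp only [sy, mul_smul, ← Finset.smul_sum, mul_smul_comm, smul_neg]

variable (hB : B.OK I) (H : m.OK I B) (h0 : B.P none none x = 1) (h1 : ∀ a, B.P none (some a) x = 0)
include H

theorem J_sy (v : m.V) : m.J (sy m x t v) = sy m x t (m.J v) := by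
  have e : ∀ a v, m.J (m.ρ a x v) = m.ρ a x (m.J v) := fun a => ap (H.Jρ a x)
  simp only [sy, neg_apply, mul_apply_eq_comp, sum_apply, smul_apply, map_neg, map_sum, map_smul, e]

theorem j_sy (s : Eu lam) (v : m.V) : m.j x s (sy m x t v) = sy m x t (m.j x s v) := by
  have e : ∀ a v, m.j x s (m.ρ a x v) = m.ρ a x (m.j x s v) := fun a => ap (H.jρ a x s)
  simp only [sy, neg_apply, mul_apply_eq_comp, sum_apply, smul_apply, map_neg, map_sum, map_smul, e]

theorem JJ (v : m.V) : m.J (m.J v) = -v := ap H.Jsq v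

theorem pp_J {v : m.V} (hv : m.pp B x v = v) : m.pp B x (m.J v) = m.J v :=
  (ap (J_pp H x) v).symm.trans (congrArg m.J hv)

include hB in
theorem pp_sy {v : m.V} (hv : m.pp B x v = v) : m.pp B x (sy m x t v) = sy m x t v := by
  have e : ∀ a, m.pp B x (m.ρ none x (m.ρ a x v)) = m.ρ none x (m.ρ a x v) := fun a =>
    (ap (pp_rho2 hB H none a x) v).trans (congrArg (fun w => m.ρ none x (m.ρ a x w)) hv)
  simp only [sy, neg_apply, mul_apply_eq_comp, sum_apply, smul_apply, map_neg, map_sum, map_smul, e]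

include h0 in
theorem r0_sq (v : m.V) : m.ρ none x (m.ρ none x v) = -m.p x v := by
  have e := ap ((H.cl x).rel none none) v
  simp only [add_apply, mul_apply_eq_comp, smul_apply, h0] at e
  exact smul_right_injective _ (two_ne_zero (α := ℝ))
    (by simp only [two_smul ℝ (m.ρ none x _), e]; module)

include h1

theorem r0_anti (a : κ) (v : m.V) :
    m.ρ (some a) x (m.ρ none x v) = -m.ρ none x (m.ρ (some a) x v) := by
  have e := ap ((H.cl x).rel none (some a)) v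
  simp only [add_apply, mul_apply_eq_comp, h1, mul_zero, zero_smul, zero_apply] at e
  exact eq_neg_of_add_eq_zero_right e

theorem sy_skw : Skw (sy m x t) := fun v w => by
  simp only [sy, neg_apply, mul_apply_eq_comp, sum_apply, smul_apply, map_sum, map_smul,
    inner_neg_left, inner_neg_right, sum_inner, inner_sum, real_inner_smul_left,
    real_inner_smul_right, H.ρsk _ x _, r0_anti H h1, neg_neg, mul_neg, Finset.sum_neg_distrib]

theorem syJ_sym (v w : m.V) : ⟪sy m x t (m.J v), w⟫_ℝ = ⟪v, sy m x t (m.J w)⟫_ℝ := by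
  rw [sy_skw H h1, H.Jsk, neg_neg, J_sy H]

include h0

theorem sy_sq {v : m.V} (hv : m.p x v = v) : sy m x t (sy m x t v) = -(nq B x t • v) := by
  have e := ap ((H.cl x).sym_sum (S := fun a b => a.elim 0 t * b.elim 0 t) fun a b => mul_comm _ _) v
  have e2 : ∀ a w, m.p x (m.ρ a x w) = m.ρ a x w := fun a => ap ((H.cl x).pl a)
  simp only [Fintype.sum_option, Option.elim, zero_mul, mul_zero, zero_smul, Finset.sum_const_zero,
    zero_add, sum_apply, smul_apply, mul_apply_eq_comp, hv, neg_smul, neg_apply] at e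
  rw [nq, ← e]
  simp only [sy, neg_apply, mul_apply_eq_comp, sum_apply, smul_apply, map_neg, map_sum, map_smul,
    r0_anti H h1, r0_sq H h0, e2, neg_neg, smul_neg, Finset.sum_neg_distrib, Finset.smul_sum,
    mul_smul]
  rw [Finset.sum_comm]
  exact Finset.sum_congr rfl fun a _ => Finset.sum_congr rfl fun b _ => smul_comm _ _ _

theorem syJ_sq {v : m.V} (hv : m.p x v = v) :
    sy m x t (m.J (sy m x t (m.J v))) = nq B x t • v := by
  rw [J_sy H, JJ H, map_neg, map_neg, sy_sq H h0 h1 hv, neg_neg]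

omit h0 h1 in
theorem sy_P (hP : ∀ a, B.P (some a) none x = 0) (b : κ) :
    sy m x (fun a => B.P (some b) (some a) x) = -(m.ρ none x * m.ρ (some b) x) := by
  rw [sy, ← (H.cl x).proj (some b), Fintype.sum_option, hP, zero_smul, zero_add]

include hB

omit H h0 in
theorem nq_P (b : κ) : nq B x (fun a => B.P (some b) (some a) x) = B.P (some b) (some b) x := by
  have i : ∀ a, ∑ k, B.P (some b) (some k) x * B.P a (some k) x = B.P (some b) a x := fun a => by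
    rw [← (hB.pr x).idem, Fintype.sum_option, (hB.pr x).symm _ none, h1, zero_mul, zero_add]
    exact Finset.sum_congr rfl fun k _ => congrArg _ ((hB.pr x).symm _ _)
  simp only [nq, mul_assoc, ← Finset.mul_sum, i]

theorem exists_I : ∃ v b, m.pp B x v = v ∧
    ⟪sy m x (fun a => B.P (some b) (some a) x) (m.J v), v⟫_ℝ ≠ 0 := by
  by_contra hc
  simp only [not_exists, not_and, not_not] at hc
  have hP : ∀ a, B.P (some a) none x = 0 := fun a => ((hB.pr x).symm _ _).trans (h1 a)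
  have k : ∀ u, m.pp B x u = 0 := fun u₀ => by
    set u := m.pp B x u₀
    have hu : m.pp B x u = u := ap (pp_pp hB H x) u₀
    have pu : m.p x u = u := ap (p_pp H x) u₀
    have e : ∀ b, B.P (some b) (some b) x * ⟪u, u⟫_ℝ = 0 := fun b => by
      obtain ⟨t, ht⟩ : ∃ t, t = fun a => B.P (some b) (some a) x := ⟨_, rfl⟩
      have a1 := hc u b hu
      have a2 := hc (u + sy m x t (m.J u)) b (by rw [map_add, hu, pp_sy hB H (pp_J H hu)])
      have a3 := syJ_sym (t := t) H h1 (sy m x t (m.J u)) u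
      have n := nq_P hB h1 b
      rw [← ht] at a1 a2 n
      rw [map_add, map_add, syJ_sq H h0 h1 pu, n, inner_add_left, inner_add_right, inner_add_right,
        a1, real_inner_smul_left, real_inner_smul_left, real_inner_comm (sy m x t _) u, a1] at a2
      rw [syJ_sq H h0 h1 pu, n, real_inner_smul_left] at a3
      linarith
    have r := hB.rk x
    rw [Fintype.sum_option, h0] at r
    have := Finset.sum_eq_zero (s := Finset.univ) fun b _ => e b
    rw [← Finset.sum_mul, show ∑ b, B.P (some b) (some b) x = 3 by linarith] at this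
    exact inner_self_eq_zero.1 ((mul_eq_zero.1 this).resolve_left three_ne_zero)
  have k2 : m.p x = 0 := ContinuousLinearMap.ext fun v => by
    have e : m.pp B x (m.ρ none x (m.pm B x v)) = _ := ap (pp_rho hB H none x) _
    have e' := congrArg (m.ρ none x) e
    rw [k, map_zero, mul_apply_eq_comp, r0_sq H h0, show m.pm B x (m.pm B x v) = _ from
      ap (pm_pm hB H x) v, show m.p x (m.pm B x v) = _ from ap (p_pm H x) v] at e'
    rw [← pp_add_pm (B := B), add_apply, k, zero_add, zero_apply, ← neg_eq_zero, ← e']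
  have := H.prk x
  rw [k2] at this
  simp at this

omit h0 h1 hB in
theorem iso_S {ξ : m.A} {Φ : m.V} (hξ : ξ ∈ m.gS x) (e : opL ξ Φ = m.J Φ) (s : Eu lam) :
    ⟪Φ, m.j x s Φ⟫_ℝ = 0 := by
  have a1 := g_skw hξ Φ (m.j x s (m.J Φ))
  have a2 := H.Jsk Φ (m.j x s (m.J Φ))
  have b1 : ∀ v, m.j x s (m.J v) = -m.J (m.j x s v) := ap (H.jJ x s)
  have b2 : opL ξ (m.j x s (m.J Φ)) = -m.j x s Φ := by
    rw [show opL ξ (m.j x s (m.J Φ)) = m.j x s (opL ξ (m.J Φ)) from (ap (g_j hξ s) _).symm,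
      show opL ξ (m.J Φ) = m.J (opL ξ Φ) from (ap (g_J hξ) _).symm, e, JJ H, map_neg]
  rw [e, b2] at a1
  rw [a1, b1, map_neg, JJ H] at a2
  simp only [inner_neg_right, neg_neg] at a2
  linarith

theorem exists_S {ξ : m.A} {Φ : m.V} (hξ : ξ ∈ m.gS x) (e : opL ξ Φ = m.J Φ)
    (hp : m.pp B x Φ = Φ) (h : Φ ≠ 0) : ∃ s b,
    ⟪sy m x (fun a => B.P (some b) (some a) x) (m.J (m.j x s Φ)), m.j x s Φ⟫_ℝ ≠ 0 := by
  have hP : ∀ a, B.P (some a) none x = 0 := fun a => ((hB.pr x).symm _ _).trans (h1 a)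
  have pΦ : m.p x Φ = Φ := by rw [← hp]; exact ap (p_pp H x) Φ
  have sq := Abel74.g_sq hB H hξ
  have e2 := ap sq Φ
  rw [mul_apply_eq_comp, e, show opL ξ (m.J Φ) = m.J (opL ξ Φ) from (ap (g_J hξ) _).symm, e, JJ H,
    smul_apply, pΦ, ← neg_one_smul ℝ Φ] at e2
  rw [← smul_left_injective ℝ h e2, neg_one_smul] at sq
  have p : Top68.SP I B m x ξ Φ := ⟨hB, H, hξ, sq, hp, e, h⟩
  obtain ⟨s, hs⟩ := Abel74.exists_lf hB x
  have jj : m.j x s (m.j x s Φ) = Φ := by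
    rw [← mul_apply_eq_comp, H.jsq, hs.ls, hs.n1, one_pow, one_smul, pΦ]
  by_contra hc
  simp only [not_exists, not_not] at hc
  have pJ : m.p x (m.J Φ) = m.J Φ := (ap (H.Jp x) Φ).symm.trans (congrArg _ pΦ)
  have := p.par1 (w := m.ρ none x (m.J Φ)) (by rw [p.hf_ρ, p.hf_J, p.hfΦ])
    ((ap (pm_rho hB H none x) _).trans (congrArg (m.ρ none x) (pp_J H hp)))
  rw [Finset.sum_eq_zero fun b _ => ?_, eq_comm, smul_eq_zero, inner_self_eq_zero] at this
  · have a := congrArg (fun w => m.J (m.ρ none x w)) (this.resolve_left h)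
    simp only [r0_sq H h0, pJ, map_neg, JJ H, neg_neg, map_zero] at a
    exact h a
  · cases b with
    | none =>
      have a := H.Jsk Φ Φ
      rw [real_inner_comm] at a
      rw [H.ρsk, r0_sq H h0, pJ, inner_neg_right, show ⟪Φ, m.J Φ⟫_ℝ = 0 by linarith]
      simp
    | some b =>
      have a := hc s b
      rw [show m.J (m.j x s Φ) = -m.j x s (m.J Φ) from by
          rw [show m.j x s (m.J Φ) = _ from ap (H.jJ x s) Φ]; exact (neg_neg _).symm,
        map_neg, ← j_sy H, inner_neg_left, H.jsym, jj, sy_P H hP, neg_apply, inner_neg_left, neg_neg,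
        mul_apply_eq_comp, real_inner_comm] at a
      rw [H.ρsk, r0_anti H h1, inner_neg_right, a]
      simp

end pt

variable {E3 : Type} [NormedAddCommGroup E3] [NormedSpace ℝ E3] [FiniteDimensional ℝ E3]
  [MeasurableSpace E3] [BorelSpace E3]
  {H3 : Type} [TopologicalSpace H3] {I3 : ModelWithCorners ℝ E3 H3} [I3.Boundaryless]
  {Y : Type} [TopologicalSpace Y] [ChartedSpace H3 Y] [IsManifold I3 ∞ Y] [T2Space Y]
  [MeasurableSpace Y] [BorelSpace Y] [SecondCountableTopology Y] [CompactSpace Y]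
  {κ : Type} [Fintype κ] {lam : Type} [Fintype lam] {D : YD I3 Y κ lam} {β : YC Y κ lam}

variable (D β) in
/-- the form part of the gradient -/
def gA1 (α : Y → Fm κ β.m.A) (φ : Y → β.m.V) (y : Y) : Fm κ β.m.A := (YF.z0 D).gA (vy β α φ) y

variable (D β) in
/-- the spinor part of the gradient -/
def gP1 (α : Y → Fm κ β.m.A) (φ : Y → β.m.V) (y : Y) : β.m.V := (YF.z0 D).gP (vy β α φ) y

theorem gP0 (hβ : D.Adm β) {φ : Y → β.m.V} (hφ : Sm I3 φ) (y : Y) :
    gP1 D β 0 φ y = -β.m.ρ none y (∑ a, β.m.ρ (some a) y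
      (nab I3 D.F.e (cn β) a β.Φ y + nab I3 D.F.e (cn β) a φ y)) := by
  have s : Sm I3 fun y => β.Φ y + φ y := (sm_Φ hβ).add hφ
  have e1 := congrFun (D_none_fst D.F.toPre s) (y, 0)
  have e2 := fun a => congrFun (D_some_fst D.F.toPre s a) (y, 0)
  have e : gP1 D β 0 φ y = -β.m.ρ none y (∑ a, β.m.ρ a y
      ((cylP D.F.toPre).D a (fun x => β.Φ x.1 + φ x.1) (y, 0) +
        (β.W a y + opL (up κ β.m.A 0 a)) (β.Φ y + φ y)) - 0) := rfl
  rw [e, Fintype.sum_option, e1, hβ.tmp, map_zero]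
  simp only [e2, PiLp.zero_apply, map_zero, add_zero, zero_apply, Pi.zero_apply, zero_add, sub_zero,
    ← fun a => nab_add (e := D.F.e) (A := cn β) a (sm_Φ hβ y) (hφ y)]
  rfl

theorem lf_eP (hβ : D.Adm β) {φ : Y → β.m.V} (hφ : Sm I3 φ) (y : Y) :
    lf D β (fun y => eP κ _ (φ y)) y =
      (2 : ℝ) • eA κ _ (deriv (fun ε : ℝ => gA1 D β 0 (fun _ => ε • φ y) y) 0) +
        eP κ _ (-β.m.ρ none y (∑ a, β.m.ρ (some a) y (nab I3 D.F.e (cn β) a φ y))) +
        (2 : ℝ) • eG κ _ (sgp β φ y) := by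
  have z : ∀ {V : Type} [NormedAddCommGroup V] [NormedSpace ℝ V] (A : κ → Y → V →L[ℝ] V) a,
      nab I3 D.F.e A a (fun _ => 0) y = 0 := fun A a => by simp [nab]
  have e : ∀ ε : ℝ, gP1 D β 0 (ε • φ) y = -β.m.ρ none y (∑ a, β.m.ρ (some a) y
      (nab I3 D.F.e (cn β) a β.Φ y)) + ε • -β.m.ρ none y (∑ a, β.m.ρ (some a) y
      (nab I3 D.F.e (cn β) a φ y)) := fun ε => by
    rw [gP0 hβ (φ := ε • φ) ((contMDiff_const (I' := 𝓘(ℝ, ℝ)) (c := ε)).smul hφ)]
    simp only [nab, dv_const_smul ε (SA.md (hφ y)), Pi.smul_apply, map_add, map_smul, smul_add,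
      Finset.sum_add_distrib, ← Finset.smul_sum, neg_add, smul_neg]
  have k : ∀ α : Y → Fm κ β.m.A, α = 0 → ∀ m : Y → β.m.A, m = 0 →
      (2 : ℝ) • eA κ _ (deriv (fun ε : ℝ => gA1 D β (ε • α) (ε • φ) y) 0 +
        (1 / 4 : ℝ) • dga D β m y) +
      eP κ _ (deriv (fun ε : ℝ => gP1 D β (ε • α) (ε • φ) y) 0 + dgp β m y) +
      (2 : ℝ) • eG κ _ ((1 / 4 : ℝ) • sga D β α y + sgp β φ y) =
      (2 : ℝ) • eA κ _ (deriv (fun ε : ℝ => gA1 D β 0 (ε • φ) y) 0) +
        eP κ _ (-β.m.ρ none y (∑ a, β.m.ρ (some a) y (nab I3 D.F.e (cn β) a φ y))) +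
        (2 : ℝ) • eG κ _ (sgp β φ y) := by
    rintro _ rfl _ rfl
    have a1 : dga D β 0 y = 0 := PiLp.ext fun a => neg_eq_zero.2 (z _ a)
    have a2 : sga D β 0 y = 0 := Finset.sum_eq_zero fun a _ => by
      rw [show nab I3 D.F.e (an β) a (fun z => (0 : Y → Fm κ β.m.A) z a) y = 0 from z _ a]; simp
    simp only [a1, a2, smul_zero, add_zero, zero_add, e, show dgp β 0 y = 0 by simp [dgp]]
    rw [(((hasDerivAt_id' (0 : ℝ)).smul_const _).const_add _).deriv, one_smul]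
  exact k _ (funext fun z => by simp [eP]) _ (funext fun z => by simp [eP])

theorem lf_smul (hβ : D.Adm β) {φ : Y → β.m.V} (hφ : Sm I3 φ) {f : Y → ℝ} (hf : Sm I3 f) (y : Y) :
    lf D β (fun y => f y • eP κ _ (φ y)) y = f y • lf D β (fun y => eP κ _ (φ y)) y +
      eP κ _ (sy β.m y (fun a => D.F.D a f y) (φ y)) := by
  have e := deriv_comp_mul_left (f y) (fun ε : ℝ => gA1 D β 0 (fun _ => ε • φ y) y) 0
  simp only [← map_smul (eP κ _)]
  rw [lf_eP hβ (Wrd81.sm_smul hf hφ), lf_eP hβ hφ]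
  simp only [mul_zero, mul_smul, smul_comm (f y)] at e
  simp only [e, nab_smul _ (hf y) (hφ y), sgp, ← qL_apply, map_smul, smul_apply, sy, map_add,
    Finset.sum_add_distrib, ← Finset.smul_sum, neg_apply, mul_apply_eq_comp, sum_apply, neg_add,
    map_neg, Pre.D]
  module

/-- a spinor as a section of the total bundle -/
def sP (φ : Sec I3 (pv D β)) : Sec I3 (ph D β) :=
  ⟨fun y => eP κ _ (φ.1 y), (eP κ _).contMDiff.comp φ.2.1, .of_compactSpace _,
    fun y => maps_i2 y _ (φ.2.2.2 y)⟩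

/-- `J` on sections -/
def sJ (hβ : D.Adm β) (φ : Sec I3 (pv D β)) : Sec I3 (pv D β) :=
  ⟨fun y => β.m.J (φ.1 y), β.m.J.contMDiff.comp φ.2.1, .of_compactSpace _,
    fun y => pv_J hβ (φ.2.2.2 y)⟩

theorem inner_eP (u v : β.m.V) : ⟪eP κ _ u, eP κ _ v⟫_ℝ = ⟪u, v⟫_ℝ := by
  rw [inner2]; simp only [eP, f2_i2, s2_i2, inner_zero_left, zero_add]

/-- **high frequency multiples of `ψ`** -/
theorem core (h : D.OK) (hβ : D.Adm β) (O : OpY D β) (ψ : Sec I3 (pv D β)) {y₀ : Y} {b : κ}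
    (h0 : ⟪sy β.m y₀ (fun a => D.F.P b a y₀) (β.m.J (ψ.1 y₀)), ψ.1 y₀⟫_ℝ ≠ 0) {ε : ℝ} (hε : ε ≠ 0)
    (R : ℝ) : ∃ (f g : Y → ℝ) (hf : Sm I3 f) (hg : Sm I3 g) (v : XX D β 1),
      R * (‖D.F.lift 1 0 _ _ (lf D β) v - D.F.toH 0 _ (sP (fs hf ψ + fs hg (sJ hβ ψ)))‖ ^ 2 +
        ‖D.F.incl 1 0 _ v‖ ^ 2) <
        ε * ⟪D.F.incl 1 0 _ v, D.F.toH 0 _ (sP (fs hf ψ + fs hg (sJ hβ ψ)))⟫_ℝ := by
  obtain ⟨σ, B, C, G, -, e, -⟩ := O
  have hB := ok3 h
  have H := mok hβ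
  have P0 : ∀ y, (B3 D).P none none y = 1 := fun _ => rfl
  have P1 : ∀ y a, (B3 D).P none (some a) y = 0 := fun _ _ => rfl
  have r : D.F.Rep (D.F.opH 0 (ph D β) (ph D β) σ B) (D.F.op σ B) :=
    rep_opH (fun a => ⟨C, G.σ a⟩) ⟨C, G.B⟩ G.qσ (Maps.of_left G.qB)
  rw [show D.F.lift 1 0 _ _ (lf D β) = _ from (RepT_congr r e).liftT_eq]
  set c := ⟪sy β.m y₀ (fun a => D.F.P b a y₀) (β.m.J (ψ.1 y₀)), ψ.1 y₀⟫_ℝ with hc
  obtain ⟨ξ, hξ⟩ := Wrd81.exists_covector D.F y₀ b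
  obtain ⟨θ, sθ, -, -, dθ⟩ := Wrd81.exists_fun_deriv (I := I3) (univ_mem (f := 𝓝 y₀)) ((ε * c) • ξ)
  set t : Y → κ → ℝ := fun y a => D.F.D a θ y with ht
  have st : ∀ a, Sm I3 fun y => t y a := D.F.sm_D sθ
  have t0 : t y₀ = fun a => ε * c * D.F.P b a y₀ := funext fun a => by
    rw [← hξ]; exact dθ _
  have sb : ∀ (φ : Sec I3 (pv D β)) y, ∑ a, D.F.D a θ y • σ a y ((sP φ).1 y) =
      eP κ _ (sy β.m y (t y) (φ.1 y)) := fun φ y => by
    have a1 := congrFun (e (fs sθ (sP φ))) y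
    have a2 := lf_smul hβ φ.2.1 sθ y
    rw [← show _ = lf D β (fun y => eP κ _ (φ.1 y)) from e (sP φ)] at a2
    exact add_left_cancel ((op_fs sθ (sP φ).2.1 y).symm.trans (a1.trans a2))
  let T : Sec I3 (pv D β) → Sec I3 (pv D β) := fun φ => ⟨fun y => sy β.m y (t y) (φ.1 y),
    (((H.sρ none).clm_comp (contMDiff_finsetSum fun a _ => Wrd81.sm_smul (st a)
      (H.sρ (some a)))).neg).clm_apply φ.2.1, .of_compactSpace _, fun y => pp_sy hB H (φ.2.2.2 y)⟩
  have sq : ∀ y, sy β.m y (t y) (β.m.J (sy β.m y (t y) (β.m.J (ψ.1 y)))) =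
      nq (B3 D) y (t y) • ψ.1 y := fun y => syJ_sq H (P0 y) (P1 y) (p_pv hβ (ψ.2.2.2 y))
  have sn : Sm I3 fun y => nq (B3 D) y (t y) := contMDiff_finsetSum fun a _ =>
    contMDiff_finsetSum fun b _ => ((st a).mul (st b)).mul (hB.sP _ _)
  let k : Y → ℝ := fun y => ε * (nq (B3 D) y (t y) * ⟪(T (sJ hβ ψ)).1 y, ψ.1 y⟫_ℝ)
  have ck : Continuous k :=
    continuous_const.mul (sn.continuous.mul ((T _).2.1.continuous.inner ψ.2.1.continuous))
  have k0 : 0 < k y₀ := by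
    have a1 : ⟪(T (sJ hβ ψ)).1 y₀, ψ.1 y₀⟫_ℝ = ε * c * c := by
      change ⟪sy β.m y₀ (t y₀) (β.m.J (ψ.1 y₀)), ψ.1 y₀⟫_ℝ = _
      rw [t0, sy_smul, smul_apply, real_inner_smul_left]
    have a2 := syJ_sym (t := t y₀) H (P1 y₀) ((T (sJ hβ ψ)).1 y₀) (ψ.1 y₀)
    have a3 : (T (sJ hβ ψ)).1 y₀ ≠ 0 := fun e0 => by
      rw [e0, inner_zero_left] at a1
      exact mul_ne_zero (mul_ne_zero hε h0) h0 a1.symm
    rw [show sy β.m y₀ (t y₀) (β.m.J ((T (sJ hβ ψ)).1 y₀)) = _ from sq y₀,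
      real_inner_smul_left] at a2
    have a4 := (pos_iff_pos_of_mul_pos (a2 ▸ real_inner_self_pos.2 a3)).2 (real_inner_self_pos.2
      fun e0 => h0 (by rw [hc, e0, inner_zero_right]))
    simp only [k, a1]
    have : ε * (nq (B3 D) y₀ (t y₀) * (ε * c * c)) = nq (B3 D) y₀ (t y₀) * (ε * c) ^ 2 := by ring
    rw [this]
    exact mul_pos a4 (sq_pos_of_ne_zero (mul_ne_zero hε h0))
  obtain ⟨χ, sχ, -, χ1, χ2⟩ := Wrd81.exists_bump (I := I3) (ck.continuousAt.eventually_const_lt k0)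
  let u := fs sχ (T (sJ hβ ψ))
  have s0 : ∀ y, (T (sJ hβ u)).1 y = (χ y * nq (B3 D) y (t y)) • ψ.1 y := fun y => by
    change sy β.m y (t y) (β.m.J (χ y • sy β.m y (t y) (β.m.J (ψ.1 y)))) = _
    rw [map_smul, map_smul, sq, mul_smul]
  obtain ⟨τ, v, hv⟩ := high r sθ (sP u) (sP (sJ hβ u)) (sP (T (sJ hβ u)))
    (sP (sJ hβ (T (sJ hβ u)))) (sb _) (fun y => (sb _ y).trans (by
      change _ = -eP κ _ (β.m.J (sy β.m y (t y) (β.m.J (u.1 y))))
      rw [J_sy H, JJ H, map_neg, map_neg, neg_neg]))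
    (fun y => by
      simp only [sP, inner_eP]
      exact (H.Jsk _ _).trans (by rw [show β.m.J ((sJ hβ (T (sJ hβ u))).1 y) = _ from JJ H _,
        inner_neg_right, neg_neg]))
    (fun y => by
      simp only [sP, inner_eP]
      exact add_eq_zero_iff_neg_eq.2 (H.Jsk _ _).symm) (ε := ε) (by
      rw [← integral_const_mul]
      have e3 : ∀ y, ε * ⟪(sP u).1 y, (sP (T (sJ hβ u))).1 y⟫_ℝ = χ y * χ y * k y := fun y => by
        simp only [sP, inner_eP, s0]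
        simp only [u, fs, real_inner_smul_left, real_inner_smul_right, k]
        ring
      simp only [e3]
      refine Continuous.integral_pos_of_hasCompactSupport_nonneg_nonzero (x := y₀)
        ((sχ.continuous.mul sχ.continuous).mul ck) (.of_compactSpace _) (fun y => ?_) ?_
      · by_cases hy : y ∈ tsupport χ
        · exact mul_nonneg (mul_self_nonneg _) (χ1 hy).le
        · simp [image_eq_zero_of_notMem_tsupport hy]
      · simpa [show χ y₀ = 1 from χ2.eq_of_nhds] using k0.ne') R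
  have sf := (contMDiff_const (c := τ)).mul ((sm_cos sθ τ).mul (sχ.mul sn))
  have sg := (contMDiff_const (c := τ)).mul ((sm_sin sθ τ).mul (sχ.mul sn))
  refine ⟨_, _, sf, sg, v, ?_⟩
  rwa [show sP (fs sf ψ + fs sg (sJ hβ ψ)) = τ • rt sθ τ (sP (T (sJ hβ u)))
    (sP (sJ hβ (T (sJ hβ u)))) from Subtype.ext (funext fun y => ?_)]
  change eP κ _ ((τ * (_ * _)) • _ + (τ * (_ * _)) • β.m.J _) = τ • (_ • eP κ _ ((T (sJ hβ u)).1 y) +
    _ • eP κ _ (β.m.J ((T (sJ hβ u)).1 y)))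
  simp only [s0, map_add, map_smul, smul_add, mul_smul, Pi.mul_apply]

theorem X0_sP (hβ : D.Adm β) (k : ℕ) (φ : Sec I3 (pv D β)) :
    xX D β (D.F.val k β.m.pg 0) 0 (D.F.toH 0 _ (sP φ)) = D.F.toH 0 _ (sP (sJ hβ φ)) := by
  have e : (fun y => sm2 (onv (Option κ) (xa β (D.F.val k β.m.pg 0) y))
      (xs β (D.F.val k β.m.pg 0) y)) = fun _ => sm2 0 β.m.J := funext fun y => by
    rw [val_zero, xa, xs, Pi.zero_apply, map_zero, sub_zero, ← adcL_apply, map_zero, neg_zero]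
    congr 1
  have m : Maps (ph D β) (ph D β) fun _ => sm2 0 β.m.J := fun y v hv => by
    rw [show sm2 0 β.m.J v = i2 _ _ (β.m.J (s2 _ _ v)) from ext2 (by simp) (by simp)]
    exact maps_i2 y _ (pv_J hβ (maps_s2 y v hv))
  rw [xX, e]
  exact RepT_toH' (rep_mulH (Cb_const _) m) _ _
    (funext fun y => ext2 (by simp [sP, sJ, eP]) (by simp [sP, sJ, eP]))

theorem j0_pt (k : ℕ) (φ : Sec I3 (pv D β)) : D.F.incl k 0 _ (emb D β 2 k
    (iC D β (k + 1) k (pt D β (k + 1) (0, φ)), 0)) = D.F.toH 0 _ (sP φ) := by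
  rw [← incl_toH k.zero_le, ← RepT_toH' (rep_mulH (k := k) (q := ph D β) (f := fun _ => eP κ β.m.N)
    (Cb_const _) maps_i2) φ (sP φ) rfl, ← incl_toH k.le_succ]
  simp [emb, iC, pt]

theorem tau_re (h : HY D) (hβ : D.Adm β) {k : ℕ} (hk : 7 ≤ k) (d : B2 D) (hS : Sm1 D (.re d))
    (φ : Sec I3 (pv D β)) (hA : ∀ y, (yf D (.re d)).gA β y = 0)
    (hP : ∀ y, (yf D (.re d)).gP β y = φ.1 y) :
    mT D β (yf D (.re d)) (k + 1) (k + 1) 0 = pt D β (k + 1) (0, φ) := by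
  have e := (Classical.epsilon_spec (hS.T β hβ k hk)).2 0
  rw [map_zero, (g_cf_zero _ β).1, (g_cf_zero _ β).2] at e
  refine cc_ext h (by omega) (fun y a => ?_) fun y => ?_
  · rw [mT, (e y).1, hA, map_zero, val_pt1 h (by omega)]; rfl
  · rw [mT, (e y).2, hP, φ.2.2.2, val_pt2 h (by omega)]

variable (D β) in
/-- the inequality `GM.Sgn` -/
def Sn (ψ : XX D β 0) (ε R : ℝ) : Prop := ∃ v : XX D β 1,
  R * (‖D.F.lift 1 0 _ _ (lf D β) v - ψ‖ ^ 2 + ‖D.F.incl 1 0 _ v‖ ^ 2) < ε * ⟪D.F.incl 1 0 _ v, ψ⟫_ℝ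

theorem sgI (h : HY D) (hβ : D.Adm β) (O : OpY D β) (k : ℕ) {ε : ℝ} (ε0 : ε ≠ 0) (R : ℝ) :
    ∃ ψ, xX D β (D.F.val k β.m.pg 0) 0 (xX D β (D.F.val k β.m.pg 0) 0 ψ) = -ψ ∧ Sn D β ψ ε R := by
  obtain ⟨y⟩ := h.conn.toNonempty
  obtain ⟨v, b, h1, h2⟩ := exists_I (x := y) (ok3 h.ok) (mok hβ) rfl fun _ => rfl
  obtain ⟨f, g, hf, hg, w, hw⟩ := core h.ok hβ O ⟨fun y => pv D β y v,
    (sm_pv h.ok hβ).clm_apply contMDiff_const, .of_compactSpace _, fun y => pv_pv h.ok hβ y v⟩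
    (y₀ := y) (b := b) (by simp only [pv_eq, h1]; exact h2) ε0 R
  refine ⟨_, ?_, w, hw⟩
  rw [X0_sP hβ, X0_sP hβ, ← map_neg]
  exact congrArg _ (Subtype.ext (funext fun y => (congrArg _ (JJ (mok hβ) _)).trans (map_neg _ _)))

theorem sgS (h : HY D) (hβ : D.Adm β) (O : OpY D β) {k : ℕ} (hk : 7 ≤ k)
    (hS : ∀ j, Sw j → Sm1 D j) (ξ : GG D β (k + 1 + 1)) (h0 : jv D β (k + 1) 0 ≠ 0)
    (e : Crt72.dv D β (k + 1) 0 ξ = jv D β (k + 1) 0) {ε : ℝ} (ε0 : ε ≠ 0) (R : ℝ) :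
    ∃ d : B2 D, Sn D β (D.F.incl k 0 _ (emb D β 2 k
      (iC D β (k + 1) k (mT D β (yf D (.re d)) (k + 1) (k + 1) 0), 0))) ε R := by
  have H := mok hβ
  have s0 : ∀ y, sv D β (0 : CC D β (k + 1)) y = β.Φ y := fun y => by simp [sv, val_zero]
  have e1 : ∀ y, opL (D.F.val _ _ ξ y) (β.Φ y) = β.m.J (β.Φ y) := fun y => by
    rw [← s0, ← val_dv2 h hβ (by omega), ← val_jv2 h hβ (by omega), e]
  have e2 : ∀ y, D.F.val _ _ ξ y ∈ β.m.gS y := fun y =>
    val_proj (Cgr76.hS h) (by omega) ξ y ▸ pg_mem y _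
  obtain ⟨y, hy⟩ : ∃ y, β.Φ y ≠ 0 := by
    by_contra hc
    simp only [not_exists, not_not] at hc
    exact h0 (cc_ext h (by omega) (fun _ _ => rfl) fun y => by
      rw [val_jv2 h hβ (by omega), s0, hc, map_zero, Prod.snd_zero, val_zero, Pi.zero_apply])
  obtain ⟨s, b, h2⟩ := exists_S (ok3 h.ok) H rfl (fun _ => rfl) (e2 y) (e1 y) (pv_Φ hβ y) hy
  have n0 : ∀ y, 0 < 1 + ⟪β.Φ y, β.Φ y⟫_ℝ := fun y =>
    add_pos_of_pos_of_nonneg one_pos real_inner_self_nonneg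
  have sr : Sm I3 fun y => 2 / (1 + ⟪β.Φ y, β.Φ y⟫_ℝ) := contMDiff_const.div₀
    (contMDiff_const.add fun y => SA.inner (sm_Φ hβ y) (sm_Φ hβ y)) fun y => (n0 y).ne'
  let ψ : Sec I3 (pv D β) := fs sr ⟨fun y => β.m.j y s (β.Φ y),
    (H.sj.clm_apply contMDiff_const).clm_apply (sm_Φ hβ), .of_compactSpace _, fun y =>
      (ap (j_pp H y s) _).symm.trans (congrArg (β.m.j y s) (pv_Φ hβ y))⟩
  obtain ⟨f, g, hf, hg, w, hw⟩ := core h.ok hβ O ψ (y₀ := y) (b := b) (by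
    simp only [ψ, fs, map_smul, real_inner_smul_left, real_inner_smul_right]
    have := div_ne_zero two_ne_zero (n0 y).ne'
    exact mul_ne_zero this (mul_ne_zero this h2)) ε0 R
  let d : B2 D := ⟨⟨fun y => f y • s + g y • D.il s, [], []⟩, (Wrd81.sm_smul hf contMDiff_const).add
    (Wrd81.sm_smul hg contMDiff_const), fun _ h => (nomatch h), fun _ h => nomatch h⟩
  refine ⟨d, w, ?_⟩
  rw [tau_re h hβ hk d (hS _ fun _ h => nomatch h) (fs hf ψ + fs hg (sJ hβ ψ))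
    (fun y => add_zero _) fun y => ?_, j0_pt]
  · exact hw
  · have a := Real.mul_self_sqrt (n0 y).le
    have il : β.m.j y (D.il s) = β.m.J * β.m.j y s := H.jil y s
    have i := iso_S H (e2 y) (e1 y) (f y • s + g y • D.il s)
    change Dgr80.dn β (fun y => β.m.j y (f y • s + g y • D.il s) (Dgr80.nP β y)) y + Dgr80.dn β
      (fun y => β.m.j y (f y • s + g y • D.il s) (Dgr80.nP β y)) y =
      f y • (2 / (1 + ⟪β.Φ y, β.Φ y⟫_ℝ)) • β.m.j y s (β.Φ y) +
        g y • β.m.J ((2 / (1 + ⟪β.Φ y, β.Φ y⟫_ℝ)) • β.m.j y s (β.Φ y))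
    simp only [Dgr80.dn, Dgr80.nP, map_smul (β.m.j y _), real_inner_smul_right, i, mul_zero,
      zero_smul, sub_zero, smul_smul, ← mul_inv, ← real_inner_self_eq_norm_sq, a]
    simp only [map_add, map_smul, add_apply, smul_apply, il, mul_apply_eq_comp, div_eq_mul_inv]
    module

variable (D) in
/-- **CRIT-SG** -/
theorem sgStmt : SgStmt D := fun h h3 hS k hk _ _ =>
  have n : ∀ {ε : ℝ}, ε = 1 ∨ ε = -1 → ε ≠ 0 := by rintro _ (rfl | rfl) <;> norm_num
  ⟨fun o _ _ hε R => sgI h o.2 (h3 o.1 o.2).1 (k + 2) (n hε) R,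
    fun o ξ h0 e _ hε R => sgS h o.2 (h3 o.1 o.2).1 hk hS ξ h0 e (n hε) R⟩

end Crest.Agent.X212.Sg31
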