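import Crest.Agent.X212.Sob92.Ops

/-! High frequency test sections for a first order operator on a closed manifold. -/

set_option autoImplicit false
set_option linter.unusedSectionVars false
noncomputable section
open scoped Manifold ContDiff Topology InnerProductSpace
open MeasureTheory Set Function Filter

namespace Crest.Agent.X212.Sg31
open An An.Pre Sob92 Real

variable {E : Type} [NormedAddCommGroup E] [NormedSpace ℝ E] [FiniteDimensional ℝ E]
  [MeasurableSpace E] [BorelSpace E]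
  {HM : Type} [TopologicalSpace HM] {I : ModelWithCorners ℝ E HM}
  {M : Type} [TopologicalSpace M] [ChartedSpace HM M] [IsManifold I ∞ M]
  [MeasurableSpace M] [T2Space M] [BorelSpace M] [SecondCountableTopology M] [CompactSpace M]
  {ι : Type} [Fintype ι] {V : Type} [NormedAddCommGroup V] [InnerProductSpace ℝ V]
  {F : Pre I M ι} {p : M → V →L[ℝ] V} {σ : ι → M → V →L[ℝ] V} {B : M → V →L[ℝ] V}
  {f g θ : M → ℝ}

/-- a function times a section -/
def fs (hf : Sm I f) (u : Sec I p) : Sec I p :=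
  ⟨fun x => f x • u.1 x, hf.smul u.2.1, .of_compactSpace _, fun x => by rw [map_smul, u.2.2.2]⟩

theorem norm_fs (hf : Sm I f) (h : ∀ x, |f x| ≤ 1) (u : Sec I p) :
    ‖F.toH 0 p (fs hf u)‖ ≤ ‖F.toH 0 p u‖ := by
  rw [norm_toH, norm_toH]
  refine sqrt_le_sqrt (integral_mono (F.integrable_inner (fs hf u).2.1.continuous (fs hf u).2.2.1
    (fs hf u).2.1.continuous) (F.integrable_inner u.2.1.continuous u.2.2.1 u.2.1.continuous)
    fun x => ?_)
  simp only [fs, real_inner_smul_left, real_inner_smul_right, ← mul_assoc]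
  exact mul_le_of_le_one_left real_inner_self_nonneg (abs_le_one_iff_mul_self_le_one.1 (h x))

theorem op_fs (hf : Sm I f) {u : M → V} (hu : Sm I u) (x : M) :
    F.op σ B (fun x => f x • u x) x = f x • F.op σ B u x + ∑ a, F.D a f x • σ a x (u x) := by
  simp only [op, D, dv_smul (hf.mdifferentiableAt (by simp)) (hu.mdifferentiableAt (by simp)),
    map_add, map_smul, Finset.sum_add_distrib, smul_add, Finset.smul_sum]
  abel

theorem sm_cos (hθ : Sm I θ) (t : ℝ) : Sm I fun x => cos (t * θ x) :=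
  contDiff_cos.contMDiff.comp (contMDiff_const.mul hθ)

theorem sm_sin (hθ : Sm I θ) (t : ℝ) : Sm I fun x => sin (t * θ x) :=
  contDiff_sin.contMDiff.comp (contMDiff_const.mul hθ)

theorem D_fn (hθ : Sm I θ) {φ : ℝ → ℝ} {d : ℝ} (a : ι) (x : M) (h : HasDerivAt φ d (θ x)) :
    F.D a (fun x => φ (θ x)) x = d * F.D a θ x :=
  (dv_comp (hθ.mdifferentiableAt (by simp)) h.hasFDerivAt).trans (mul_comm _ _)

/-- rotation of a pair of sections -/
def rt (hθ : Sm I θ) (t : ℝ) (u u' : Sec I p) : Sec I p := fs (sm_cos hθ t) u + fs (sm_sin hθ t) u'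

theorem norm_rt (hθ : Sm I θ) (t : ℝ) (u u' : Sec I p) :
    ‖F.toH 0 p (rt hθ t u u')‖ ≤ ‖F.toH 0 p u‖ + ‖F.toH 0 p u'‖ := by
  rw [rt, map_add]
  exact (norm_add_le _ _).trans (add_le_add (norm_fs _ (fun _ => abs_cos_le_one _) u)
    (norm_fs _ (fun _ => abs_sin_le_one _) u'))

/-- **high frequency sections** -/
theorem high {L : F.H 1 p →L[ℝ] F.H 0 p} (hL : F.Rep L (F.op σ B)) (hθ : Sm I θ)
    (w w' s s' : Sec I p) (h1 : ∀ x, ∑ a, F.D a θ x • σ a x (w'.1 x) = s.1 x)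
    (h2 : ∀ x, ∑ a, F.D a θ x • σ a x (w.1 x) = -s'.1 x)
    (h3 : ∀ x, ⟪w'.1 x, s'.1 x⟫_ℝ = ⟪w.1 x, s.1 x⟫_ℝ)
    (h4 : ∀ x, ⟪w.1 x, s'.1 x⟫_ℝ + ⟪w'.1 x, s.1 x⟫_ℝ = 0) {ε : ℝ}
    (pos : 0 < ε * ∫ x, ⟪w.1 x, s.1 x⟫_ℝ ∂F.μ) (R : ℝ) :
    ∃ (t : ℝ) (v : F.H 1 p), R * (‖L v - F.toH 0 p (t • rt hθ t s s')‖ ^ 2 +
      ‖F.incl 1 0 p v‖ ^ 2) < ε * ⟪F.incl 1 0 p v, F.toH 0 p (t • rt hθ t s s')⟫_ℝ := by
  let o : Sec I p → Sec I p := fun u => ⟨_, RepT_mem hL u⟩
  set C := (‖F.toH 0 p (o w)‖ + ‖F.toH 0 p (o w')‖) ^ 2 + (‖F.toH 0 p w‖ + ‖F.toH 0 p w'‖) ^ 2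
  obtain ⟨t, ht⟩ := ((tendsto_id.atTop_mul_const pos).eventually_gt_atTop (|R| * C)).exists
  refine ⟨t, F.toH 1 p (rt hθ t w w'), ?_⟩
  have e1 : L (F.toH 1 p (rt hθ t w w')) =
      F.toH 0 p (rt hθ t (o w) (o w')) + F.toH 0 p (t • rt hθ t s s') := by
    rw [← map_add, rt, map_add, map_add, RepT_toH hL, RepT_toH hL, ← map_add]
    refine congrArg _ (Subtype.ext (funext fun x => ?_))
    have a1 := fun a => D_fn (F := F) hθ a x ((hasDerivAt_id' (θ x)).const_mul t).cos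
    have a2 := fun a => D_fn (F := F) hθ a x ((hasDerivAt_id' (θ x)).const_mul t).sin
    simp only [rt, fs, o, Submodule.coe_add, Submodule.coe_smul, Pi.add_apply, Pi.smul_apply,
      op_fs (sm_cos hθ t) w.2.1, op_fs (sm_sin hθ t) w'.2.1, a1, a2, mul_smul, ← Finset.smul_sum,
      h1, h2]
    module
  have e2 : ⟪F.toH 0 p (rt hθ t w w'), F.toH 0 p (rt hθ t s s')⟫_ℝ =
      ∫ x, ⟪w.1 x, s.1 x⟫_ℝ ∂F.μ := by
    rw [inner_toH]
    refine integral_congr_ae (.of_forall fun x => ?_)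
    simp only [rt, fs, Submodule.coe_add, Pi.add_apply, inner_add_left, inner_add_right,
      real_inner_smul_left, real_inner_smul_right, h3]
    linear_combination ⟪w.1 x, s.1 x⟫_ℝ * cos_sq_add_sin_sq (t * θ x) +
      cos (t * θ x) * sin (t * θ x) * h4 x
  rw [e1, add_sub_cancel_right, incl_toH zero_le_one, map_smul, real_inner_smul_right, e2,
    mul_left_comm]
  refine lt_of_le_of_lt ?_ ht
  refine (mul_le_mul_of_nonneg_right (le_abs_self R) (by positivity)).trans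
    (mul_le_mul_of_nonneg_left (add_le_add ?_ ?_) (abs_nonneg R)) <;>
    exact pow_le_pow_left₀ (norm_nonneg _) (norm_rt _ _ _ _) 2

end Crest.Agent.X212.Sg31
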